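import Vale.Agent.P155Z.Sk
import Vale.Agent.P155.U.ExtGreen

/-!
# P155, block FIX: the weights of finitely many independent copies
-/

namespace Vale.Agent.P155.Tree.Fix

open MeasureTheory Filter Topology ProbabilityTheory Set TopologicalSpace Metric Vale.Agent.P155
  Vale.Agent.P155.Q1 Vale.Agent.P155.Uq

/-- resampling one coordinate preserves the product measure -/
theorem map_update {ι S : Type} [DecidableEq ι] [MeasurableSpace S] (Q : Measure S)
    [IsProbabilityMeasure Q] (i : ι) :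
    ((Measure.infinitePi fun _ : ι => Q).prod Q).map
      (fun p : (ι → S) × S => Function.update p.1 i p.2) = Measure.infinitePi fun _ : ι => Q := by
  refine Measure.eq_infinitePi _ fun s t ht => ?_
  have hm : MeasurableSet (Set.pi (s : Set ι) t) :=
    MeasurableSet.pi s.countable_toSet fun j _ => ht j
  rw [Measure.map_apply measurable_update' hm]
  by_cases hi : i ∈ s
  · have e : (fun p : (ι → S) × S => Function.update p.1 i p.2) ⁻¹' Set.pi (s : Set ι) t =
        Set.pi ((s.erase i : Finset ι) : Set ι) t ×ˢ t i := by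
      ext p
      simp only [mem_preimage, Set.mem_pi, Finset.mem_coe, mem_prod, Finset.mem_erase]
      constructor
      · intro hp
        refine ⟨fun j hj => ?_, ?_⟩
        · have := hp j hj.2
          rwa [Function.update_of_ne hj.1] at this
        · have := hp i hi
          rwa [Function.update_self] at this
      · rintro ⟨h1, h2⟩ j hj
        by_cases hji : j = i
        · subst hji
          rwa [Function.update_self]
        · rw [Function.update_of_ne hji]
          exact h1 j ⟨hji, hj⟩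
    rw [e, Measure.prod_prod, Measure.infinitePi_pi _ fun j _ => ht j,
      Finset.prod_erase_mul _ _ hi]
  · have e : (fun p : (ι → S) × S => Function.update p.1 i p.2) ⁻¹' Set.pi (s : Set ι) t =
        Set.pi (s : Set ι) t ×ˢ (univ : Set S) := by
      ext p
      simp only [mem_preimage, Set.mem_pi, Finset.mem_coe, mem_prod, mem_univ, and_true]
      refine forall₂_congr fun j hj => ?_
      rw [Function.update_of_ne (fun e : j = i => hi (e ▸ hj))]
    rw [e, Measure.prod_prod, Measure.infinitePi_pi _ fun j _ => ht j, measure_univ, mul_one]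

theorem test_bdd {U : Set ℂ} {φ : ℂ → ℝ} (hφ : IsTest U φ) : ∃ C : ℝ, ∀ z, |φ z| ≤ C := by
  obtain ⟨C, hC⟩ := hφ.1.continuous.bounded_above_of_compact_support hφ.2.1
  exact ⟨C, fun z => by simpa using hC z⟩

theorem test_int {U : Set ℂ} {φ : ℂ → ℝ} (hφ : IsTest U φ) : Integrable φ :=
  hφ.1.continuous.integrable_of_hasCompactSupport hφ.2.1

theorem norm_weight_le (x e : ℝ) (he : 0 ≤ e) :
    ‖Complex.exp (Complex.I * cst * (x : ℂ) - (e : ℂ) / 2)‖ ≤ 1 := by
  rw [Complex.norm_exp]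
  have : (Complex.I * cst * (x : ℂ) - (e : ℂ) / 2).re = -(e / 2) := by
    simp
  rw [this]
  exact Real.exp_le_one_iff.2 (by linarith)

theorem norm_weight_le' (e : ℝ) (he : 0 ≤ e) : ‖Complex.exp (-(e : ℂ) / 2)‖ ≤ 1 := by
  have := norm_weight_le 0 e he
  simpa [neg_div] using this

variable (M : Model)

/-- the weight of one step from the level `l` to the level `l'` -/
noncomputable def wt (l l' : ℕ) (ψ : ℂ → ℝ) (t : M.S) : ℂ :=
  Complex.exp (Complex.I * cst *
    (((∫ z, M.g l' t z * ψ z : ℝ) - (∫ z, M.g l t z * ψ z : ℝ) : ℝ) : ℂ) -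
    greenEnergy (DD \ (M.G l' t : Set ℂ)) ψ / 2)

/-- the weight of the level `l` -/
noncomputable def vt (l : ℕ) (ψ : ℂ → ℝ) (t : M.S) : ℂ :=
  Complex.exp (-greenEnergy (DD \ (M.G l t : Set ℂ)) ψ / 2)

theorem en_nonneg {ψ : ℂ → ℝ} (hψ : IsTest DD ψ) (A : Set ℂ) : 0 ≤ greenEnergy (DD \ A) ψ := by
  obtain ⟨C, hC⟩ := test_bdd hψ
  exact green_nonneg (isBounded_ball.subset sdiff_subset) hC

theorem wt_le (l l' : ℕ) {ψ : ℂ → ℝ} (hψ : IsTest DD ψ) (t : M.S) : ‖wt M l l' ψ t‖ ≤ 1 :=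
  norm_weight_le _ _ (en_nonneg hψ _)

theorem vt_le (l : ℕ) {ψ : ℂ → ℝ} (hψ : IsTest DD ψ) (t : M.S) : ‖vt M l ψ t‖ ≤ 1 :=
  norm_weight_le' _ (en_nonneg hψ _)

theorem meas_en (l : ℕ) {ψ : ℂ → ℝ} (hψ : IsTest DD ψ) :
    Measurable[M.F l] fun t => greenEnergy (DD \ (M.G l t : Set ℂ)) ψ := by
  obtain ⟨C, hC⟩ := test_bdd hψ
  exact @meas_green DD isBounded_ball ψ C hC M.S (M.F l) _ (M.mG l)

theorem meas_vt (l : ℕ) {ψ : ℂ → ℝ} (hψ : IsTest DD ψ) : Measurable[M.F l] (vt M l ψ) := by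
  have h := meas_en M l hψ
  let _ : MeasurableSpace M.S := M.F l
  unfold vt
  fun_prop

theorem meas_g (l : ℕ) : Measurable (fun p : M.S × ℂ => M.g l p.1 p.2) :=
  (M.mg l).mono (sup_le_sup (MeasurableSpace.comap_mono (M.F.le l)) le_rfl) le_rfl

theorem meas_int (l : ℕ) {ψ : ℂ → ℝ} (hψ : IsTest DD ψ) :
    Measurable fun t => ∫ z, M.g l t z * ψ z := by
  have h : Measurable (fun p : M.S × ℂ => M.g l p.1 p.2 * ψ p.2) :=
    (meas_g M l).mul (hψ.1.continuous.measurable.comp measurable_snd)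
  exact (h.stronglyMeasurable.integral_prod_right' (ν := volume)).measurable

theorem meas_wt (l l' : ℕ) {ψ : ℂ → ℝ} (hψ : IsTest DD ψ) : Measurable (wt M l l' ψ) := by
  have h1 := meas_int M l hψ
  have h2 := meas_int M l' hψ
  have h3 := (meas_en M l' hψ).mono (M.F.le l') le_rfl
  unfold wt
  fun_prop

theorem gff_real {l l' : ℕ} (hl : l' = l + 1 ∨ l' = l) {ψ : ℂ → ℝ} (hψ : IsTest DD ψ)
    {Ψ : M.S → ℝ} (hΨ : Measurable[M.F l] Ψ) (hb : ∃ C, ∀ t, |Ψ t| ≤ C) :
    ∫ t, (Ψ t : ℂ) * wt M l l' ψ t ∂M.Q = ∫ t, (Ψ t : ℂ) * vt M l ψ t ∂M.Q := by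
  rcases hl with rfl | rfl
  · have h := M.gff l ψ hψ Ψ hΨ hb
    simpa only [wt, vt, Complex.ofReal_sub] using h
  · simp [wt, vt, neg_div]

theorem int_of_bdd {X : Type} [MeasurableSpace X] {μ : Measure X} [IsFiniteMeasure μ]
    {f : X → ℂ} (hf : Measurable f) {C : ℝ} (hC : ∀ x, ‖f x‖ ≤ C) : Integrable f μ :=
  Integrable.of_bound hf.aestronglyMeasurable C (Eventually.of_forall hC)

theorem mul_le {x y : ℂ} {C : ℝ} (hx : ‖x‖ ≤ C) (hy : ‖y‖ ≤ 1) : ‖x * y‖ ≤ C := by
  rw [norm_mul]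
  exact (mul_le_of_le_one_right (norm_nonneg _) hy).trans hx

theorem split_int {X : Type} [MeasurableSpace X] {μ : Measure X} [IsFiniteMeasure μ]
    {Φ w : X → ℂ} (hΦ : Measurable Φ) (hw : Measurable w) {C : ℝ} (hC : ∀ x, ‖Φ x‖ ≤ C)
    (h1 : ∀ x, ‖w x‖ ≤ 1) : ∫ x, Φ x * w x ∂μ =
      ∫ x, ((Φ x).re : ℂ) * w x ∂μ + Complex.I * ∫ x, ((Φ x).im : ℂ) * w x ∂μ := by
  have a1 : Integrable (fun x => ((Φ x).re : ℂ) * w x) μ :=
    int_of_bdd (C := C) (by fun_prop) fun x => mul_le (by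
      rw [Complex.norm_real]
      exact (Complex.abs_re_le_norm _).trans (hC x)) (h1 x)
  have a2 : Integrable (fun x => ((Φ x).im : ℂ) * w x) μ :=
    int_of_bdd (C := C) (by fun_prop) fun x => mul_le (by
      rw [Complex.norm_real]
      exact (Complex.abs_im_le_norm _).trans (hC x)) (h1 x)
  rw [← integral_const_mul, ← integral_add a1 (a2.const_mul _)]
  refine integral_congr_ae (Eventually.of_forall fun x => ?_)
  show Φ x * w x = ((Φ x).re : ℂ) * w x + Complex.I * (((Φ x).im : ℂ) * w x)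
  conv_lhs => rw [← Complex.re_add_im (Φ x)]
  ring

theorem gff_cx {l l' : ℕ} (hl : l' = l + 1 ∨ l' = l) {ψ : ℂ → ℝ} (hψ : IsTest DD ψ)
    {Φ : M.S → ℂ} (hΦ : Measurable[M.F l] Φ) {C : ℝ} (hC : ∀ t, ‖Φ t‖ ≤ C) :
    ∫ t, Φ t * wt M l l' ψ t ∂M.Q = ∫ t, Φ t * vt M l ψ t ∂M.Q := by
  have hΦ' : Measurable Φ := hΦ.mono (M.F.le l) le_rfl
  rw [split_int hΦ' (meas_wt M l l' hψ) hC (wt_le M l l' hψ),
    split_int hΦ' ((meas_vt M l hψ).mono (M.F.le l) le_rfl) hC (vt_le M l hψ),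
    gff_real M hl hψ (Ψ := fun t => (Φ t).re) (Complex.measurable_re.comp hΦ)
      ⟨C, fun t => (Complex.abs_re_le_norm _).trans (hC t)⟩,
    gff_real M hl hψ (Ψ := fun t => (Φ t).im) (Complex.measurable_im.comp hΦ)
      ⟨C, fun t => (Complex.abs_im_le_norm _).trans (hC t)⟩]

instance instProbQQ : IsProbabilityMeasure M.QQ := by
  unfold Model.QQ
  infer_instance

theorem resample (i : ℕ × Bool) {f : M.Cop → ℂ} (hf : Measurable f) {C : ℝ}
    (hC : ∀ s, ‖f s‖ ≤ C) :
    ∫ s, f s ∂M.QQ = ∫ s, (∫ t, f (Function.update s i t) ∂M.Q) ∂M.QQ := by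
  have h := map_update (ι := ℕ × Bool) M.Q i
  have hm : Measurable (fun p : M.Cop × M.S => Function.update p.1 i p.2) := measurable_update'
  calc ∫ s, f s ∂M.QQ = ∫ s, f s ∂((M.QQ.prod M.Q).map
        (fun p : M.Cop × M.S => Function.update p.1 i p.2)) := by
        congr 1
        exact h.symm
    _ = ∫ p, f (Function.update p.1 i p.2) ∂(M.QQ.prod M.Q) :=
        integral_map hm.aemeasurable hf.aestronglyMeasurable
    _ = _ := integral_prod _ (int_of_bdd (hf.comp hm) fun p => hC _)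

theorem one_step (i : ℕ × Bool) {l l' : ℕ} (hl : l' = l + 1 ∨ l' = l) {ψ : ℂ → ℝ}
    (hψ : IsTest DD ψ) {Φ : M.Cop → ℂ} (hΦ : Measurable Φ) {C : ℝ} (hC : ∀ s, ‖Φ s‖ ≤ C)
    (hup : ∀ s, Measurable[M.F l] fun t => Φ (Function.update s i t)) :
    ∫ s, Φ s * wt M l l' ψ (s i) ∂M.QQ = ∫ s, Φ s * vt M l ψ (s i) ∂M.QQ := by
  have h1 : Measurable fun s : M.Cop => wt M l l' ψ (s i) :=
    (meas_wt M l l' hψ).comp (measurable_pi_apply i)
  have h2 : Measurable fun s : M.Cop => vt M l ψ (s i) :=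
    ((meas_vt M l hψ).mono (M.F.le l) le_rfl).comp (measurable_pi_apply i)
  rw [resample M i (f := fun s => Φ s * wt M l l' ψ (s i)) (hΦ.mul h1) (C := C)
      fun s => mul_le (hC s) (wt_le M l l' hψ _),
    resample M i (f := fun s => Φ s * vt M l ψ (s i)) (hΦ.mul h2) (C := C)
      fun s => mul_le (hC s) (vt_le M l hψ _)]
  refine integral_congr_ae (Eventually.of_forall fun s => ?_)
  simp only [Function.update_self]
  exact gff_cx M hl hψ (hup s) fun t => hC _

/-- the product of the pasts at the levels `L` -/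
@[reducible] def pastL (L : Bool → ℕ) : MeasurableSpace M.Cop :=
  @MeasurableSpace.pi (ℕ × Bool) (fun _ => M.S) fun i => M.F (L i.2)

theorem pastL_le (L : Bool → ℕ) : pastL M L ≤ (MeasurableSpace.pi : MeasurableSpace M.Cop) :=
  iSup_mono fun _ => MeasurableSpace.comap_mono (M.F.le _)

theorem meas_eval (L : Bool → ℕ) (i : ℕ × Bool) :
    @Measurable M.Cop M.S (pastL M L) (M.F (L i.2)) fun s => s i :=
  @measurable_pi_apply (ℕ × Bool) (fun _ => M.S) (fun i => M.F (L i.2)) i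

theorem meas_upd (L : Bool → ℕ) (i : ℕ × Bool) (s : M.Cop) :
    @Measurable M.S M.Cop (M.F (L i.2)) (pastL M L) (Function.update s i) :=
  @measurable_update (ℕ × Bool) (fun _ => M.S) (fun i => M.F (L i.2)) s i _

theorem prod_le {ι : Type} (I : Finset ι) {f : ι → ℂ} (hf : ∀ j ∈ I, ‖f j‖ ≤ 1) :
    ‖∏ j ∈ I, f j‖ ≤ 1 := by
  rw [norm_prod]
  exact Finset.prod_le_one (fun j _ => norm_nonneg _) hf

/-- **The product formula.** -/
theorem prod_step {ι : Type} (c : ι → ℕ × Bool) (hc : Function.Injective c) {L L' : Bool → ℕ}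
    (hL : ∀ b, L' b = L b + 1 ∨ L' b = L b) {ψ : ι → ℂ → ℝ} (hψ : ∀ j, IsTest DD (ψ j))
    (I : Finset ι) : ∀ Φ : M.Cop → ℂ, Measurable[pastL M L] Φ → ∀ C : ℝ, (∀ s, ‖Φ s‖ ≤ C) →
    ∫ s, Φ s * ∏ j ∈ I, wt M (L (c j).2) (L' (c j).2) (ψ j) (s (c j)) ∂M.QQ =
      ∫ s, Φ s * ∏ j ∈ I, vt M (L (c j).2) (ψ j) (s (c j)) ∂M.QQ := by
  classical
  induction I using Finset.induction_on with
  | empty =>
    intro Φ _ C _
    simp
  | insert j I hj ih =>
    intro Φ hΦ C hC
    simp only [Finset.prod_insert hj]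
    have hR : Measurable fun s : M.Cop =>
        ∏ j ∈ I, wt M (L (c j).2) (L' (c j).2) (ψ j) (s (c j)) :=
      Finset.measurable_prod _ fun j _ =>
        (meas_wt M _ _ (hψ j)).comp (measurable_pi_apply (c j))
    have e1 := one_step M (c j) (hL (c j).2) (hψ j)
      (Φ := fun s => Φ s * ∏ j ∈ I, wt M (L (c j).2) (L' (c j).2) (ψ j) (s (c j)))
      ((hΦ.mono (pastL_le M L) le_rfl).mul hR) (C := C)
      (fun s => mul_le (hC s) (prod_le _ fun j _ => wt_le M _ _ (hψ j) _)) (fun s => by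
        have e : (fun t => Φ (Function.update s (c j) t) * ∏ i ∈ I,
            wt M (L (c i).2) (L' (c i).2) (ψ i) (Function.update s (c j) t (c i))) =
            fun t => Φ (Function.update s (c j) t) * ∏ i ∈ I,
            wt M (L (c i).2) (L' (c i).2) (ψ i) (s (c i)) := by
          funext t
          congr 1
          refine Finset.prod_congr rfl fun i hi => ?_
          rw [Function.update_of_ne fun e : c i = c j => hj (hc e ▸ hi)]
        rw [e]
        exact (hΦ.comp (meas_upd M L (c j) s)).mul_const _)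
    have e2 := ih (fun s => Φ s * vt M (L (c j).2) (ψ j) (s (c j)))
      (hΦ.mul ((meas_vt M _ (hψ j)).comp (meas_eval M L (c j)))) C
      (fun s => mul_le (hC s) (vt_le M _ (hψ j) _))
    calc _ = ∫ s, (Φ s * ∏ j ∈ I, wt M (L (c j).2) (L' (c j).2) (ψ j) (s (c j))) *
          wt M (L (c j).2) (L' (c j).2) (ψ j) (s (c j)) ∂M.QQ := by
          congr 1
          funext s
          ring
      _ = ∫ s, (Φ s * vt M (L (c j).2) (ψ j) (s (c j))) *
          ∏ j ∈ I, wt M (L (c j).2) (L' (c j).2) (ψ j) (s (c j)) ∂M.QQ := by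
          rw [e1]
          congr 1
          funext s
          ring
      _ = _ := by
          rw [e2]
          congr 1
          funext s
          ring

end Vale.Agent.P155.Tree.Fix
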