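import Vale.Agent.P155Z.FIX.A
import Vale.Agent.P155.NT814Y.Gre
import Vale.Agent.P155.CI.Green

/-!
# P155, block FIX: test functions supported in finitely many holes
-/

namespace Vale.Agent.P155.Tree.Fix

open MeasureTheory Filter Topology ProbabilityTheory Set TopologicalSpace Metric Vale.Agent.P155
  Vale.Agent.P155.Q1 Vale.Agent.P155.Uq

/-- the indices of the holes -/
def HI (Ω : Set ℂ) (K : NonemptyCompacts ℂ) : Type :=
  {j : ℕ // denseSeq ℂ j ∈ Ω \ (K : Set ℂ) ∧ idx (NCLE.hole Ω K (denseSeq ℂ j)) = j}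

/-- the holes -/
def HU (Ω : Set ℂ) (K : NonemptyCompacts ℂ) (j : HI Ω K) : Set ℂ :=
  NCLE.hole Ω K (denseSeq ℂ j.1)

variable {Ω : Set ℂ} {K : NonemptyCompacts ℂ} {h : ℂ → ℝ}

theorem isOpen_O (hΩ : IsOpen Ω) (K : NonemptyCompacts ℂ) : IsOpen (Ω \ (K : Set ℂ)) :=
  hΩ.sdiff K.isCompact.isClosed

theorem isOpen_HU (hΩ : IsOpen Ω) (j : HI Ω K) : IsOpen (HU Ω K j) :=
  (isOpen_O hΩ K).connectedComponentIn

theorem HU_sub (j : HI Ω K) : HU Ω K j ⊆ Ω \ (K : Set ℂ) := connectedComponentIn_subset _ _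

theorem hole_eq {j : HI Ω K} {z : ℂ} (hz : z ∈ HU Ω K j) : NCLE.hole Ω K z = HU Ω K j :=
  (connectedComponentIn_eq hz).symm

theorem idx_eq {j : HI Ω K} {z : ℂ} (hz : z ∈ HU Ω K j) : idx (NCLE.hole Ω K z) = j.1 := by
  rw [hole_eq hz]
  exact j.2.2

theorem disj_HU : Pairwise (Function.onFun Disjoint (HU Ω K)) := by
  intro i j hij
  refine Set.disjoint_left.2 fun z hi hj => hij (Subtype.ext ?_)
  rw [← idx_eq hi, ← idx_eq hj]

theorem iUnion_HU (hΩ : IsOpen Ω) : (⋃ j, HU Ω K j) = Ω \ (K : Set ℂ) := by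
  refine Subset.antisymm (iUnion_subset HU_sub) fun z hz => ?_
  have ho : IsOpen (NCLE.hole Ω K z) := (isOpen_O hΩ K).connectedComponentIn
  have hzz : z ∈ NCLE.hole Ω K z := mem_connectedComponentIn hz
  have hne : {i | denseSeq ℂ i ∈ NCLE.hole Ω K z}.Nonempty :=
    (denseRange_denseSeq ℂ).exists_mem_open ho ⟨z, hzz⟩
  have hm : denseSeq ℂ (idx (NCLE.hole Ω K z)) ∈ NCLE.hole Ω K z := Nat.sInf_mem hne
  have he : NCLE.hole Ω K (denseSeq ℂ (idx (NCLE.hole Ω K z))) = NCLE.hole Ω K z :=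
    (connectedComponentIn_eq hm).symm
  refine mem_iUnion.2 ⟨⟨idx (NCLE.hole Ω K z), connectedComponentIn_subset _ _ hm, by rw [he]⟩, ?_⟩
  show z ∈ NCLE.hole Ω K (denseSeq ℂ (idx (NCLE.hole Ω K z)))
  rw [he]
  exact hzz

theorem h_eq (hT : Typed Ω K h) {j : HI Ω K} {z : ℂ} (hz : z ∈ HU Ω K j) :
    h z = h (denseSeq ℂ j.1) := by
  have hp : IsPreconnected (HU Ω K j) := isPreconnected_connectedComponentIn
  have hc : ContinuousOn h (HU Ω K j) := fun w hw =>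
    (continuousAt_const.congr (EventuallyEq.symm (f := h) (g := fun _ => h w)
      (hT.loc w (HU_sub j hw)))).continuousWithinAt
  have hd : denseSeq ℂ j.1 ∈ HU Ω K j := mem_connectedComponentIn j.2.1
  have hf : ({0, 1, -1} : Set ℝ).Finite := Set.toFinite _
  exact hp.constant_of_mapsTo hf.isDiscrete hc (fun w _ => hT.val w) hz hd

open Classical in
/-- the copy used in a hole -/
noncomputable def cc (Ω : Set ℂ) (K : NonemptyCompacts ℂ) (h : ℂ → ℝ) (j : HI Ω K) : ℕ × Bool :=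
  (j.1, decide (h (denseSeq ℂ j.1) ≠ 0))

theorem cc_inj : Function.Injective (cc Ω K h) := fun _ _ e =>
  Subtype.ext (congrArg Prod.fst e)

theorem ix_eq (hT : Typed Ω K h) {j : HI Ω K} {z : ℂ} (hz : z ∈ HU Ω K j) :
    ix Ω K h z = cc Ω K h j := by
  unfold ix cc
  rw [idx_eq hz, h_eq hT hz]

/-- glued sets and heights at the levels `L` -/
structure Gl (M : Model) (Ω : Set ℂ) (a : NonemptyCompacts ℂ → ℕ → ℂ → ℂ)
    (K : NonemptyCompacts ℂ) (h : ℂ → ℝ) (L : Bool → ℕ) (s : M.Cop) (S : Set ℂ)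
    (γ : ℂ → ℝ) : Prop where
  sub : (K : Set ℂ) ⊆ S
  mem : ∀ z ∈ Ω \ (K : Set ℂ), z ∈ S ↔ a K (ix Ω K h z).1 z ∈
    (M.G (L (ix Ω K h z).2) (s (ix Ω K h z)) : Set ℂ)
  val : ∀ z ∈ Ω \ (K : Set ℂ),
    γ z = h z + M.g (L (ix Ω K h z).2) (s (ix Ω K h z)) (a K (ix Ω K h z).1 z)
  meas : Measurable γ
  bdd : ∃ C : ℝ, ∀ z, |γ z| ≤ C

variable {M : Model} {a b : NonemptyCompacts ℂ → ℕ → ℂ → ℂ}

theorem conf_HU (hR : Rie Ω a b) (hT : Typed Ω K h) (j : HI Ω K) :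
    CI.Conf DD (HU Ω K j) (b K j.1) (a K j.1) := (hR.conf K j.1 hT.carp j.2.1).symm

/-- the piece of a test function in a hole, in the disc -/
noncomputable def pc (Ω : Set ℂ) (K : NonemptyCompacts ℂ) (b : NonemptyCompacts ℂ → ℕ → ℂ → ℂ)
    (φ : ℂ → ℝ) (j : HI Ω K) : ℂ → ℝ :=
  CI.pullD DD (b K j.1) ((HU Ω K j).indicator φ)

theorem test_piece (hΩ : IsOpen Ω) {φ : ℂ → ℝ} (hφ : IsTest (Ω \ (K : Set ℂ)) φ) (j : HI Ω K) :
    IsTest (HU Ω K j) ((HU Ω K j).indicator φ) :=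
  NT814Y.isTest_piece' (isOpen_HU hΩ) disj_HU (by rw [iUnion_HU hΩ]; exact hφ) j

theorem test_pc (hΩ : IsOpen Ω) (hR : Rie Ω a b) (hT : Typed Ω K h) {φ : ℂ → ℝ}
    (hφ : IsTest (Ω \ (K : Set ℂ)) φ) (j : HI Ω K) : IsTest DD (pc Ω K b φ j) :=
  CI.isTest_pullD' (conf_HU hR hT j) (test_piece hΩ hφ j)

theorem en_eq (hΩ : IsOpen Ω) (hb : Bornology.IsBounded Ω) (hR : Rie Ω a b) (hT : Typed Ω K h)
    {φ : ℂ → ℝ} (hφ : IsTest (Ω \ (K : Set ℂ)) φ) {I : Finset (HI Ω K)}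
    (hI : tsupport φ ⊆ ⋃ j ∈ I, HU Ω K j) {L : Bool → ℕ} {s : M.Cop} {S : Set ℂ} {γ : ℂ → ℝ}
    (hG : Gl M Ω a K h L s S γ) : greenEnergy (Ω \ S) φ = ∑ j ∈ I,
      greenEnergy (DD \ (M.G (L (cc Ω K h j).2) (s (cc Ω K h j)) : Set ℂ)) (pc Ω K b φ j) := by
  have e : Ω \ S = (⋃ j, HU Ω K j) \ S := by
    rw [iUnion_HU hΩ]
    ext z
    exact ⟨fun hz => ⟨⟨hz.1, fun hK => hz.2 (hG.sub hK)⟩, hz.2⟩, fun hz => ⟨hz.1.1, hz.2⟩⟩
  rw [e, NT814Y.green_add (isOpen_HU hΩ) disj_HU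
    (by rw [iUnion_HU hΩ]; exact hb.subset sdiff_subset) (by rw [iUnion_HU hΩ]; exact hφ) hI]
  refine Finset.sum_congr rfl fun j _ => ?_
  have hc := conf_HU hR hT j
  rw [CI.green_conf hc sdiff_subset]
  congr 1
  ext w
  have key : w ∈ DD → (b K j.1 w ∈ S ↔
      w ∈ (M.G (L (cc Ω K h j).2) (s (cc Ω K h j)) : Set ℂ)) := fun hw => by
    have h1 := hG.mem _ (HU_sub j (hc.mf hw))
    rw [ix_eq hT (hc.mf hw)] at h1
    have h2 : a K (cc Ω K h j).1 (b K j.1 w) = w := hc.gf w hw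
    rwa [h2] at h1
  constructor
  · rintro ⟨hw, -, h2⟩
    exact ⟨hw, fun h3 => h2 ((key hw).2 h3)⟩
  · rintro ⟨hw, h2⟩
    exact ⟨hw, hc.mf hw, fun h3 => h2 ((key hw).1 h3)⟩

theorem int_mul {U : Set ℂ} {φ γ : ℂ → ℝ} (hφ : IsTest U φ) (hγ : Measurable γ)
    (hb : ∃ C : ℝ, ∀ z, |γ z| ≤ C) : Integrable fun z => γ z * φ z := by
  obtain ⟨C, hC⟩ := hb
  exact (test_int hφ).bdd_mul (c := C) hγ.aestronglyMeasurable
    (Eventually.of_forall fun z => by simpa using hC z)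

theorem int_g (M : Model) (l : ℕ) (t : M.S) {ψ : ℂ → ℝ} (hψ : IsTest DD ψ) :
    Integrable fun z => M.g l t z * ψ z :=
  int_mul hψ ((meas_g M l).comp measurable_prodMk_left) ⟨l, M.bdd l t⟩

theorem int_eq (hΩ : IsOpen Ω) (hR : Rie Ω a b) (hT : Typed Ω K h)
    {φ : ℂ → ℝ} (hφ : IsTest (Ω \ (K : Set ℂ)) φ) {I : Finset (HI Ω K)}
    (hI : tsupport φ ⊆ ⋃ j ∈ I, HU Ω K j) {L : Bool → ℕ} {s : M.Cop} {S : Set ℂ} {γ : ℂ → ℝ}
    (hG : Gl M Ω a K h L s S γ) : ∫ z, γ z * φ z = ∑ j ∈ I,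
      (h (denseSeq ℂ j.1) * (∫ w, pc Ω K b φ j w) +
        ∫ w, M.g (L (cc Ω K h j).2) (s (cc Ω K h j)) w * pc Ω K b φ j w) := by
  have e : ∫ z, γ z * φ z = ∑ j ∈ I, ∫ z, γ z * (HU Ω K j).indicator φ z := by
    rw [← integral_finsetSum _ fun j _ => int_mul (test_piece hΩ hφ j) hG.meas hG.bdd]
    congr 1
    funext z
    rw [← Finset.mul_sum, NT814Y.sum_piece disj_HU hI]
  rw [e]
  refine Finset.sum_congr rfl fun j _ => ?_
  have hc := conf_HU hR hT j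
  have ht := test_pc hΩ hR hT hφ j
  rw [← integral_const_mul, ← integral_add ((test_int ht).const_mul _) (int_g M _ _ ht)]
  have e1 : ∫ z in HU Ω K j, γ z * (HU Ω K j).indicator φ z =
      ∫ z, γ z * (HU Ω K j).indicator φ z :=
    setIntegral_eq_integral_of_forall_compl_eq_zero fun z hz => by
      rw [indicator_of_notMem hz, mul_zero]
  have e2 : ∫ w in DD, (h (denseSeq ℂ j.1) * pc Ω K b φ j w +
      M.g (L (cc Ω K h j).2) (s (cc Ω K h j)) w * pc Ω K b φ j w) =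
      ∫ w, (h (denseSeq ℂ j.1) * pc Ω K b φ j w +
        M.g (L (cc Ω K h j).2) (s (cc Ω K h j)) w * pc Ω K b φ j w) :=
    setIntegral_eq_integral_of_forall_compl_eq_zero fun z hz => by
      rw [CI.test_off ht hz, mul_zero, mul_zero, add_zero]
  rw [← e1, ← e2, CI.integral_conf hc]
  refine setIntegral_congr_fun hc.ho.measurableSet fun w hw => ?_
  have h1 := hG.val _ (HU_sub j (hc.mf hw))
  rw [ix_eq hT (hc.mf hw), h_eq hT (hc.mf hw)] at h1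
  have h2 : a K (cc Ω K h j).1 (b K j.1 w) = w := hc.gf w hw
  rw [h2] at h1
  simp only [pc, CI.pullD, if_pos hw, h1]
  ring

/-- **The identity for test functions of `Ω \ K`.** -/
theorem fin_step (hΩ : IsOpen Ω) (hb : Bornology.IsBounded Ω) (hR : Rie Ω a b)
    (hT : Typed Ω K h) {L L' : Bool → ℕ} (hL : ∀ b, L' b = L b + 1 ∨ L' b = L b)
    {S S' : M.Cop → Set ℂ} {γ γ' : M.Cop → ℂ → ℝ} (hG : ∀ s, Gl M Ω a K h L s (S s) (γ s))
    (hG' : ∀ s, Gl M Ω a K h L' s (S' s) (γ' s)) {Φ : M.Cop → ℂ} (hΦ : Measurable[pastL M L] Φ)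
    {C : ℝ} (hC : ∀ s, ‖Φ s‖ ≤ C) {φ : ℂ → ℝ} (hφ : IsTest (Ω \ (K : Set ℂ)) φ) :
    ∫ s, Φ s * Complex.exp (Complex.I * cst *
        (((∫ z, γ' s z * φ z : ℝ) - (∫ z, γ s z * φ z : ℝ) : ℝ) : ℂ) -
        greenEnergy (Ω \ S' s) φ / 2) ∂M.QQ =
      ∫ s, Φ s * Complex.exp (-greenEnergy (Ω \ S s) φ / 2) ∂M.QQ := by
  obtain ⟨I, hI⟩ := NT814Y.exists_fin (U := HU Ω K) (isOpen_HU hΩ) (φ := φ)
    (by rw [iUnion_HU hΩ]; exact hφ)
  have key := prod_step M (cc Ω K h) cc_inj hL (test_pc hΩ hR hT hφ) I Φ hΦ C hC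
  convert key using 4 with s s
  · rw [int_eq hΩ hR hT hφ hI (hG s), int_eq hΩ hR hT hφ hI (hG' s),
      en_eq hΩ hb hR hT hφ hI (hG' s)]
    simp only [wt, ← Complex.exp_sum]
    congr 1
    rw [← Finset.sum_sub_distrib]
    push_cast
    rw [Finset.mul_sum, Finset.sum_div, ← Finset.sum_sub_distrib]
    refine Finset.sum_congr rfl fun j _ => ?_
    ring
  · rw [en_eq hΩ hb hR hT hφ hI (hG s)]
    simp only [vt, ← Complex.exp_sum]
    congr 1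
    push_cast
    rw [neg_div, Finset.sum_div, ← Finset.sum_neg_distrib]
    refine Finset.sum_congr rfl fun j _ => ?_
    ring

end Vale.Agent.P155.Tree.Fix
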